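import Mathlib

/-!
P201, part B, abstract setting: walks of a matching graph, reachability, ball bound.
-/

namespace Vale.Agent.P201.Z.B

open Finset

variable {C V : Type}

/-- the matching involution on ports -/
def mtA (σ : Equiv.Perm C) (q : C × Bool) : C × Bool :=
  if q.2 then (σ q.1, false) else (σ.symm q.1, true)

@[simp] theorem mtA_true (σ : Equiv.Perm C) (c : C) : mtA σ (c, true) = (σ c, false) := by simp [mtA]
@[simp] theorem mtA_false (σ : Equiv.Perm C) (c : C) : mtA σ (c, false) = (σ.symm c, true) := by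
  simp [mtA]

@[simp] theorem mtA_mtA (σ : Equiv.Perm C) (q : C × Bool) : mtA σ (mtA σ q) = q := by
  obtain ⟨c, b⟩ := q
  cases b <;> simp

theorem mtA_snd (σ : Equiv.Perm C) (q : C × Bool) : (mtA σ q).2 = !q.2 := by
  obtain ⟨c, b⟩ := q
  cases b <;> simp

theorem mtA_ne (σ : Equiv.Perm C) (q : C × Bool) : q ≠ mtA σ q := by
  intro h
  have := congrArg Prod.snd h
  rw [mtA_snd] at this
  revert this
  cases q.2 <;> simp

/-- one step relation -/
def Rl (bk : C → V) (σ : Equiv.Perm C) (a b : C × Bool) : Prop :=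
  bk (mtA σ a).1 = bk b.1 ∧ b ≠ mtA σ a

def IsW (bk : C → V) (σ : Equiv.Perm C) (l : List (C × Bool)) : Prop := l.IsChain (Rl bk σ)

def IsCW (bk : C → V) (σ : Equiv.Perm C) (l : List (C × Bool)) : Prop :=
  IsW bk σ l ∧ ∀ a ∈ l.getLast?, ∀ b ∈ l.head?, Rl bk σ a b

def Gi (bk : C → V) (σ : Equiv.Perm C) (g : ℕ) : Prop :=
  ∀ l : List (C × Bool), l ≠ [] → IsCW bk σ l → g ≤ l.length

theorem IsCW.rotate {bk : C → V} {σ : Equiv.Perm C} {l₁ l₂ : List (C × Bool)}
    (h : IsCW bk σ (l₁ ++ l₂)) : IsCW bk σ (l₂ ++ l₁) := by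
  rcases eq_or_ne l₁ [] with rfl | h1
  · simpa using h
  rcases eq_or_ne l₂ [] with rfl | h2
  · simpa using h
  obtain ⟨hc, hcl⟩ := h
  unfold IsW at hc
  rw [List.isChain_append] at hc
  obtain ⟨c1, c2, c3⟩ := hc
  refine ⟨?_, ?_⟩
  · unfold IsW
    rw [List.isChain_append]
    refine ⟨c2, c1, ?_⟩
    intro x hx y hy
    refine hcl x ?_ y ?_
    · rw [List.getLast?_append_of_ne_nil _ h2]; exact hx
    · rw [List.head?_append_of_ne_nil _ h1]; exact hy
  · intro a ha b hb
    rw [List.getLast?_append_of_ne_nil _ h1] at ha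
    rw [List.head?_append_of_ne_nil _ h2] at hb
    exact c3 a ha b hb

/-- reachability in at most `k` steps -/
def Rch (bk : C → V) (σ : Equiv.Perm C) : ℕ → V → V → Prop
  | 0, X, Y => X = Y
  | k + 1, X, Y => X = Y ∨ ∃ q : C × Bool, bk q.1 = X ∧ Rch bk σ k (bk (mtA σ q).1) Y

theorem Rch.refl (bk : C → V) (σ : Equiv.Perm C) (k : ℕ) (X : V) : Rch bk σ k X X := by
  cases k with
  | zero => rfl
  | succ k => exact Or.inl rfl

theorem Rch.succ {bk : C → V} {σ : Equiv.Perm C} : ∀ {k : ℕ} {X Y : V},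
    Rch bk σ k X Y → Rch bk σ (k + 1) X Y := by
  intro k
  induction k with
  | zero => intro X Y h; exact Or.inl h
  | succ k ih =>
    intro X Y h
    rcases h with h | ⟨q, h1, h2⟩
    · exact Or.inl h
    · exact Or.inr ⟨q, h1, ih h2⟩

theorem Rch.mono {bk : C → V} {σ : Equiv.Perm C} {k k' : ℕ} (hk : k ≤ k') {X Y : V}
    (h : Rch bk σ k X Y) : Rch bk σ k' X Y := by
  induction hk with
  | refl => exact h
  | step _ ih => exact ih.succ

theorem Rch.snoc {bk : C → V} {σ : Equiv.Perm C} : ∀ {k : ℕ} {X : V} (q : C × Bool),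
    Rch bk σ k X (bk q.1) → Rch bk σ (k + 1) X (bk (mtA σ q).1) := by
  intro k
  induction k with
  | zero => intro X q h; exact Or.inr ⟨q, h.symm, rfl⟩
  | succ k ih =>
    intro X q h
    rcases h with h | ⟨q', h1, h2⟩
    · exact Or.inr ⟨q, h.symm, Rch.refl _ _ _ _⟩
    · exact Or.inr ⟨q', h1, ih q h2⟩

theorem Rch.symm {bk : C → V} {σ : Equiv.Perm C} : ∀ {k : ℕ} {X Y : V},
    Rch bk σ k X Y → Rch bk σ k Y X := by
  intro k
  induction k with
  | zero => intro X Y h; exact Eq.symm h
  | succ k ih =>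
    intro X Y h
    rcases h with h | ⟨q, h1, h2⟩
    · exact Or.inl h.symm
    · have := Rch.snoc (mtA σ q) (ih h2)
      rw [mtA_mtA, h1] at this
      exact this

/-- a nonempty chain of ports gives reachability -/
theorem Rch.of_chain {bk : C → V} {σ : Equiv.Perm C} : ∀ {l : List (C × Bool)} (x y : C × Bool),
    IsW bk σ l → x ∈ l.head? → y ∈ l.getLast? → Rch bk σ l.length (bk x.1) (bk (mtA σ y).1) := by
  intro l
  induction l with
  | nil => intro x y _ hx; simp at hx
  | cons a l ih =>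
    intro x y hl hx hy
    simp only [List.head?_cons, Option.mem_def, Option.some.injEq] at hx
    subst hx
    rcases eq_or_ne l [] with rfl | hne
    · simp only [List.getLast?_singleton, Option.mem_def, Option.some.injEq] at hy
      subst hy
      exact Or.inr ⟨a, rfl, rfl⟩
    · obtain ⟨b, l', rfl⟩ := List.exists_cons_of_ne_nil hne
      have hl' := hl
      unfold IsW at hl'
      rw [List.isChain_cons_cons] at hl'
      have hy' : y ∈ (b :: l').getLast? := by
        simpa [List.getLast?_cons_cons] using hy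
      have := ih b y hl'.2 (by simp) hy'
      refine Or.inr ⟨a, rfl, ?_⟩
      rw [hl'.1.1]
      exact this

section card
variable [Fintype C] [DecidableEq C] [Fintype V] [DecidableEq V]

open Classical in
theorem card_ball (bk : C → V) (σ : Equiv.Perm C) (D : ℕ)
    (hD : ∀ X : V, (univ.filter (fun q : C × Bool => bk q.1 = X)).card ≤ D) (k : ℕ) : ∀ X : V,
    (univ.filter (fun Y => Rch bk σ k X Y)).card ≤ (D + 1) ^ k := by
  induction k with
  | zero =>
    intro X
    have : (univ.filter (fun Y => Rch bk σ 0 X Y)) = {X} := by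
      ext Y
      rw [mem_filter, mem_singleton]
      exact ⟨fun h => (show X = Y from h.2).symm, fun h => ⟨mem_univ _, h.symm⟩⟩
    rw [this]; simp
  | succ k ih =>
    intro X
    have hsub : (univ.filter (fun Y => Rch bk σ (k + 1) X Y)) ⊆
        {X} ∪ (univ.filter (fun q : C × Bool => bk q.1 = X)).biUnion
          (fun q => univ.filter (fun Y => Rch bk σ k (bk (mtA σ q).1) Y)) := by
      intro Y hY
      rw [mem_filter] at hY
      have hY2 : X = Y ∨ ∃ q : C × Bool, bk q.1 = X ∧ Rch bk σ k (bk (mtA σ q).1) Y := hY.2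
      rw [mem_union, mem_singleton, mem_biUnion]
      rcases hY2 with h | ⟨q, h1, h2⟩
      · exact Or.inl h.symm
      · exact Or.inr ⟨q, mem_filter.2 ⟨mem_univ _, h1⟩, mem_filter.2 ⟨mem_univ _, h2⟩⟩
    refine (card_le_card hsub).trans ((card_union_le _ _).trans ?_)
    have h1 : ((univ.filter (fun q : C × Bool => bk q.1 = X)).biUnion
          (fun q => univ.filter (fun Y => Rch bk σ k (bk (mtA σ q).1) Y))).card ≤
        D * (D + 1) ^ k := by
      refine card_biUnion_le.trans ?_
      refine (sum_le_card_nsmul _ _ ((D + 1) ^ k) (fun q _ => ih _)).trans ?_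
      rw [smul_eq_mul]
      exact Nat.mul_le_mul_right _ (hD X)
    have h2 : 1 ≤ (D + 1) ^ k := Nat.one_le_pow _ _ (Nat.succ_pos _)
    rw [card_singleton]
    calc 1 + _ ≤ (D + 1) ^ k + D * (D + 1) ^ k := by omega
      _ = (D + 1) ^ (k + 1) := by ring

end card

end Vale.Agent.P201.Z.B
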