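import Vale.Agent.P201.Z.B.Switch

/-!
P201, part B: the far count (B2) and existence of matchings of large girth (B3).
-/

namespace Vale.Agent.P201.Z.B

open Finset

variable {C V : Type}

/-- edge of a port -/
def edg (σ : Equiv.Perm C) (q : C × Bool) : C := if q.2 then q.1 else σ.symm q.1

theorem edg_spec (σ : Equiv.Perm C) (q : C × Bool) : Ed σ (edg σ q) q := by
  obtain ⟨x, b⟩ := q
  cases b
  · right; simp [edg]
  · left; simp [edg]

theorem edg_unique {σ : Equiv.Perm C} {a : C} {q : C × Bool} (h : Ed σ a q) : edg σ q = a := by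
  rcases h with rfl | rfl
  · simp [edg]
  · simp [edg]

variable [Fintype C] [DecidableEq C] [Fintype V] [DecidableEq V]

open Classical in
/-- the near ports of a vertex -/
theorem card_near_ports (bk : C → V) (σ : Equiv.Perm C) (D : ℕ)
    (hD : ∀ X : V, (univ.filter (fun q : C × Bool => bk q.1 = X)).card ≤ D) (k : ℕ) (X : V) :
    (univ.filter (fun r : C × Bool => Rch bk σ k X (bk r.1))).card ≤ (D + 1) ^ k * D := by
  have hsub : (univ.filter (fun r : C × Bool => Rch bk σ k X (bk r.1))) ⊆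
      (univ.filter (fun Y => Rch bk σ k X Y)).biUnion
        (fun Y => univ.filter (fun q : C × Bool => bk q.1 = Y)) := by
    intro r hr
    rw [mem_filter] at hr
    rw [mem_biUnion]
    exact ⟨bk r.1, mem_filter.2 ⟨mem_univ _, hr.2⟩, mem_filter.2 ⟨mem_univ _, rfl⟩⟩
  refine (card_le_card hsub).trans ?_
  refine card_biUnion_le.trans ?_
  refine (sum_le_card_nsmul _ _ D (fun Y _ => hD Y)).trans ?_
  rw [smul_eq_mul]
  exact Nat.mul_le_mul_right _ (card_ball bk σ D hD k X)

/-- B2 -/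
theorem exists_bad (bk : C → V) (σ : Equiv.Perm C) (D : ℕ)
    (hD : ∀ X : V, (univ.filter (fun q : C × Bool => bk q.1 = X)).card ≤ D) (k : ℕ) (a : C) :
    ∃ bad : Finset C, bad.card ≤ (2 * D + 2) ^ (k + 1) ∧ ∀ c ∉ bad,
      ∀ q r, Ed σ a q → Ed σ c r → ¬ Rch bk σ k (bk q.1) (bk r.1) := by
  classical
  refine ⟨univ.filter (fun c => ∃ q r, Ed σ a q ∧ Ed σ c r ∧ Rch bk σ k (bk q.1) (bk r.1)), ?_, ?_⟩
  · have hsub : (univ.filter (fun c => ∃ q r, Ed σ a q ∧ Ed σ c r ∧ Rch bk σ k (bk q.1) (bk r.1))) ⊆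
        ((univ.filter (fun r : C × Bool => Rch bk σ k (bk a) (bk r.1))) ∪
         (univ.filter (fun r : C × Bool => Rch bk σ k (bk (σ a)) (bk r.1)))).image (edg σ) := by
      intro c hc
      rw [mem_filter] at hc
      obtain ⟨-, q, r, hq, hr, h⟩ := hc
      rw [mem_image]
      refine ⟨r, ?_, edg_unique hr⟩
      rw [mem_union, mem_filter, mem_filter]
      rcases hq with rfl | rfl
      · exact Or.inl ⟨mem_univ _, h⟩
      · exact Or.inr ⟨mem_univ _, h⟩
    refine (card_le_card hsub).trans (card_image_le.trans ((card_union_le _ _).trans ?_))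
    have h1 := card_near_ports bk σ D hD k (bk a)
    have h2 := card_near_ports bk σ D hD k (bk (σ a))
    refine (Nat.add_le_add h1 h2).trans ?_
    have h3 : (D + 1) ^ k ≤ (2 * D + 2) ^ k := Nat.pow_le_pow_left (by omega) k
    calc (D + 1) ^ k * D + (D + 1) ^ k * D = (D + 1) ^ k * (2 * D) := by ring
      _ ≤ (2 * D + 2) ^ k * (2 * D + 2) := Nat.mul_le_mul h3 (by omega)
      _ = (2 * D + 2) ^ (k + 1) := by rw [pow_succ]
  · intro c hc q r hq hr h
    exact hc (mem_filter.2 ⟨mem_univ _, q, r, hq, hr, h⟩)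

/-- B3 -/
theorem exists_girth (bk : C → V) (D g : ℕ)
    (hD : ∀ X : V, (univ.filter (fun q : C × Bool => bk q.1 = X)).card ≤ D)
    (hN : (2 * D + 2) ^ (g + 1) < Fintype.card C) : ∀ g' ≤ g,
    ∃ σ : Equiv.Perm C, Gi bk σ g' := by
  classical
  intro g'
  induction g' with
  | zero => intro _; exact ⟨1, fun l _ _ => Nat.zero_le _⟩
  | succ k ih =>
    intro hk
    obtain ⟨σ0, hσ0⟩ := ih (by omega)
    let W : Equiv.Perm C → Finset (List.Vector (C × Bool) k) :=
      fun σ => univ.filter (fun l => l.1 ≠ [] ∧ IsCW bk σ l.1)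
    have hW : ∀ σ m, m ∈ W σ ↔ m.1 ≠ [] ∧ IsCW bk σ m.1 := by
      intro σ m
      simp only [W, mem_filter, mem_univ, true_and]
    obtain ⟨σ, hσ, hmin⟩ := Finset.exists_min_image (univ.filter (fun σ => Gi bk σ k))
      (fun σ => (W σ).card) ⟨σ0, mem_filter.2 ⟨mem_univ _, hσ0⟩⟩
    rw [mem_filter] at hσ
    have hG := hσ.2
    refine ⟨σ, ?_⟩
    intro l hne hl
    have h1 := hG l hne hl
    by_contra hlt
    have hlen : l.length = k := by omega
    obtain ⟨q, l', hql⟩ := List.exists_cons_of_ne_nil hne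
    obtain ⟨bad, hb1, hb2⟩ := exists_bad bk σ D hD k (edg σ q)
    have hlt2 : bad.card < (univ : Finset C).card := by
      rw [card_univ]
      refine lt_of_le_of_lt hb1 (lt_of_le_of_lt ?_ hN)
      exact Nat.pow_le_pow_right (by omega) (by omega)
    obtain ⟨c, -, hc⟩ := Finset.exists_mem_notMem_of_card_lt_card hlt2
    have hfar := hb2 c hc
    have hG' := switch_girth hG hfar
    have hle := hmin (sw σ (edg σ q) c) (mem_filter.2 ⟨mem_univ _, hG'⟩)
    have hss : W (sw σ (edg σ q) c) ⊂ W σ := by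
      rw [Finset.ssubset_iff_of_subset]
      · refine ⟨⟨l, hlen⟩, (hW _ _).2 ⟨hne, hl⟩, ?_⟩
        intro hmem
        have hmem' := (hW _ _).1 hmem
        have := switch_old hG hfar hmem'.2 hlen.le q (by simp [hql])
        exact this.1 (edg_spec σ q)
      · intro m hm
        have hm' := (hW _ _).1 hm
        exact (hW _ _).2 ⟨hm'.1, cw_of_old hm'.2 (switch_old hG hfar hm'.2 m.2.le)⟩
    exact absurd hle (not_le.2 (card_lt_card hss))

end Vale.Agent.P201.Z.B
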