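import Vale.Agent.P201.Z.B.Exist
import Vale.Agent.P201.Z.B4

/-!
P201, part B: assembly (B1, B2, B3 from `Z/B`, B4 + B5 from `Z/B4` of helper585).
-/

namespace Vale.Agent.P201.Z

open Finset

theorem mt_eq_mtA {p : Pat} {n : ℕ} (σ : Equiv.Perm (Cel p n)) (q : Port p n) :
    mt σ q = B.mtA σ q := rfl

theorem girth_iff_gi {p : Pat} {n : ℕ} (σ : Equiv.Perm (Cel p n)) (g : ℕ) :
    Girth σ g ↔ B.Gi blk σ g := Iff.rfl

theorem stmtB : StmtB := by
  intro p n g D s hD hN Q hQ0 hQ1 hQs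
  have : DecidablePred (fun σ : Equiv.Perm (Cel p n) => Girth σ g) := Classical.decPred _
  have hpow : (2 * D + 2) ^ (g + 1) ≤ (2 * D + 2) ^ (g + 3) :=
    Nat.pow_le_pow_right (by omega) (by omega)
  have hD' : ∀ X : Blk p n, (univ.filter (fun q : Cel p n × Bool => blk q.1 = X)).card ≤ D := by
    intro X
    have h := hD X
    convert h
  obtain ⟨σ0, hσ0⟩ := B.exists_girth (blk (p := p) (n := n)) D g hD' (by omega) g le_rfl
  set R : ℕ := (2 * D + 2) ^ (g + 3) with hR
  let GG : Finset (Equiv.Perm (Cel p n)) := univ.filter (fun σ => Girth σ g)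
  have hGG : ∀ σ, σ ∈ GG ↔ Girth σ g := fun σ => by simp [GG]
  obtain ⟨σ, hσ, hS⟩ := exists_good_perm GG ⟨σ0, (hGG σ0).2 hσ0⟩ R s hN (by
    intro σ hσ a
    obtain ⟨bad, hb1, hb2⟩ := B.exists_bad (blk (p := p) (n := n)) σ D hD' g a
    refine le_trans ?_ (hb1.trans hpow)
    apply card_le_card
    intro c hc
    simp only [Finset.mem_filter, Finset.mem_univ, true_and] at hc
    by_contra hcb
    refine hc ((hGG _).2 ?_)
    have h := B.switch_girth ((hGG σ).1 hσ) (hb2 c hcb)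
    exact h) Q hQ0 hQ1 hQs
  refine ⟨σ, (hGG σ).1 hσ, fun S hSg => ?_⟩
  have := hS S (fun x hx => by
    have := hSg hx
    unfold gr at this
    rw [mem_image] at this
    obtain ⟨c, _, hc⟩ := this
    rw [← hc])
  rw [hR] at this
  push_cast at this
  exact this

end Vale.Agent.P201.Z
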