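import Vale.Agent.P201.Z.B.Abs

/-!
P201, part B, the switch lemma (B1).
-/

namespace Vale.Agent.P201.Z.B

open Finset

variable {C V : Type}

/-- every closed reduced walk contains a cyclically reduced one -/
theorem exists_cw {bk : C → V} {σ : Equiv.Perm C} : ∀ (n : ℕ) (l : List (C × Bool)),
    l.length ≤ n → IsW bk σ l → l ≠ [] →
    (∀ x ∈ l.head?, ∀ y ∈ l.getLast?, bk (mtA σ y).1 = bk x.1) →
    ∃ l' : List (C × Bool), l' ≠ [] ∧ IsCW bk σ l' ∧ l'.length ≤ l.length := by
  intro n
  induction n with
  | zero =>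
    intro l hn _ hne _
    exact absurd (List.length_eq_zero_iff.1 (Nat.le_zero.1 hn)) hne
  | succ n ih =>
    intro l hn hl hne hcl
    obtain ⟨a, m, rfl⟩ := List.exists_cons_of_ne_nil hne
    rcases List.eq_nil_or_concat' m with rfl | ⟨m', b, rfl⟩
    · refine ⟨[a], by simp, ⟨hl, ?_⟩, le_refl _⟩
      intro x hx y hy
      simp only [List.getLast?_singleton, Option.mem_def, Option.some.injEq] at hx
      simp only [List.head?_cons, Option.mem_def, Option.some.injEq] at hy
      subst hx; subst hy
      exact ⟨hcl a (by simp) a (by simp), mtA_ne σ a⟩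
    · have hlast : ∀ y, y ∈ (a :: (m' ++ [b])).getLast? ↔ y = b := by
        intro y
        rw [← List.cons_append, List.getLast?_append_of_ne_nil _ (by simp)]
        simp [eq_comm]
      by_cases hab : a = mtA σ b
      · -- backtrack at the base
        have hch := hl
        unfold IsW at hch
        rw [← List.cons_append, List.isChain_append] at hch
        obtain ⟨c1, -, c3⟩ := hch
        rcases eq_or_ne m' [] with rfl | hm'
        · have := (c3 a (by simp) b (by simp)).2
          exact absurd (by rw [hab, mtA_mtA]) this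
        · obtain ⟨x, m'', rfl⟩ := List.exists_cons_of_ne_nil hm'
          rw [List.isChain_cons_cons] at c1
          obtain ⟨l', h1, h2, h3⟩ := ih (x :: m'') (by simp at hn ⊢; omega) c1.2 (by simp) (by
            intro x' hx' y hy
            simp only [List.head?_cons, Option.mem_def, Option.some.injEq] at hx'
            subst hx'
            have h4 := (c3 y (by simpa [List.getLast?_cons_cons] using hy) b (by simp)).1
            rw [h4, ← c1.1.1, hab, mtA_mtA])
          exact ⟨l', h1, h2, h3.trans (by simp)⟩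
      · refine ⟨_, hne, ⟨hl, ?_⟩, le_refl _⟩
        intro x hx y hy
        rw [hlast] at hx
        simp only [List.head?_cons, Option.mem_def, Option.some.injEq] at hy
        subst hx; subst hy
        exact ⟨hcl a (by simp) x ((hlast x).2 rfl), hab⟩

/-- ports of the edge `a` -/
def Ed (σ : Equiv.Perm C) (a : C) (q : C × Bool) : Prop := q = (a, true) ∨ q = (σ a, false)

theorem Ed.mt {σ : Equiv.Perm C} {a : C} {q : C × Bool} (h : Ed σ a q) : Ed σ a (mtA σ q) := by
  rcases h with rfl | rfl
  · right; simp
  · left; simp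

theorem Ed.or {σ : Equiv.Perm C} {a : C} {q r : C × Bool} (h : Ed σ a q) (h' : Ed σ a r) :
    r = q ∨ r = mtA σ q := by
  rcases h with rfl | rfl <;> rcases h' with rfl | rfl <;> simp

section
variable [DecidableEq C]

/-- switched matching -/
def sw (σ : Equiv.Perm C) (a c : C) : Equiv.Perm C := (Equiv.swap a c).trans σ

theorem sw_left (σ : Equiv.Perm C) (a c : C) : sw σ a c a = σ c := by simp [sw]
theorem sw_right (σ : Equiv.Perm C) (a c : C) : sw σ a c c = σ a := by simp [sw]
theorem sw_ne (σ : Equiv.Perm C) {a c x : C} (h1 : x ≠ a) (h2 : x ≠ c) : sw σ a c x = σ x := by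
  simp [sw, Equiv.swap_apply_of_ne_of_ne h1 h2]

theorem mt_sw_old {σ : Equiv.Perm C} {a c : C} {q : C × Bool} (h1 : ¬ Ed σ a q) (h2 : ¬ Ed σ c q) :
    mtA (sw σ a c) q = mtA σ q := by
  obtain ⟨x, b⟩ := q
  unfold Ed at h1 h2
  push Not at h1 h2
  cases b
  · have e1 : x ≠ σ a := fun h => h1.2 (by rw [h])
    have e2 : x ≠ σ c := fun h => h2.2 (by rw [h])
    simp only [mtA_false, Prod.mk.injEq, and_true]
    have : (sw σ a c).symm x = Equiv.swap a c (σ.symm x) := by simp [sw]
    rw [this, Equiv.swap_apply_of_ne_of_ne]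
    · intro h; exact e1 (by rw [← h]; simp)
    · intro h; exact e2 (by rw [← h]; simp)
  · have e1 : x ≠ a := fun h => h1.1 (by rw [h])
    have e2 : x ≠ c := fun h => h2.1 (by rw [h])
    simp only [mtA_true, Prod.mk.injEq, and_true]
    exact sw_ne σ e1 e2

theorem mt_sw_a {σ : Equiv.Perm C} {a c : C} {q : C × Bool} (h : Ed σ a q) :
    Ed σ c (mtA (sw σ a c) q) := by
  rcases h with rfl | rfl
  · right; simp [sw_left]
  · left
    simp [sw]

theorem mt_sw_c {σ : Equiv.Perm C} {a c : C} {q : C × Bool} (h : Ed σ c q) :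
    Ed σ a (mtA (sw σ a c) q) := by
  rcases h with rfl | rfl
  · right; simp [sw_right]
  · left
    simp [sw]

end

theorem core {bk : C → V} {σ : Equiv.Perm C} {g : ℕ} (hg : Gi bk σ g) {e : C} {r q1 : C × Bool}
    {s1 : List (C × Bool)} (hr : Ed σ e r) (hq1 : Ed σ e q1) (hs : IsW bk σ s1)
    (hst : ∀ x ∈ (s1 ++ [q1]).head?, bk r.1 = bk x.1 ∧ x ≠ r)
    (hen : ∀ y ∈ s1.getLast?, Rl bk σ y q1) (hlen : s1.length + 1 < g) : False := by
  rcases hr.or hq1 with h | h
  · subst h
    rcases eq_or_ne s1 [] with rfl | hne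
    · exact (hst q1 (by simp)).2 rfl
    · obtain ⟨l', h1, h2, h3⟩ := exists_cw s1.length s1 le_rfl hs hne (by
        intro x hx y hy
        rw [(hen y hy).1]
        exact (hst x (by rw [List.head?_append_of_ne_nil _ hne]; exact hx)).1)
      have := hg l' h1 h2
      omega
  · have hcw : IsCW bk σ (s1 ++ [q1]) := by
      refine ⟨?_, ?_⟩
      · unfold IsW
        rw [List.isChain_append]
        refine ⟨hs, List.isChain_singleton _, ?_⟩
        intro x hx y hy
        simp only [List.head?_cons, Option.mem_def, Option.some.injEq] at hy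
        subst hy
        exact hen x hx
      · intro x hx y hy
        rw [List.getLast?_append_of_ne_nil _ (by simp)] at hx
        simp only [List.getLast?_singleton, Option.mem_def, Option.some.injEq] at hx
        subst hx
        have := hst y hy
        unfold Rl
        rw [h, mtA_mtA]
        exact this
    have := hg _ (by simp) hcw
    simp at this
    omega

theorem first_split {α : Type} (P : α → Prop) : ∀ (m : List α), (∃ x ∈ m, ¬ P x) →
    ∃ s1 q1 s2, m = s1 ++ q1 :: s2 ∧ (∀ x ∈ s1, P x) ∧ ¬ P q1 := by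
  intro m
  induction m with
  | nil => rintro ⟨x, hx, -⟩; simp at hx
  | cons a m ih =>
    intro h
    by_cases ha : P a
    · obtain ⟨x, hx, hPx⟩ := h
      have hx' : x ∈ m := by
        rcases List.mem_cons.1 hx with rfl | hx
        · exact absurd ha hPx
        · exact hx
      obtain ⟨s1, q1, s2, h1, h2, h3⟩ := ih ⟨x, hx', hPx⟩
      refine ⟨a :: s1, q1, s2, by simp [h1], ?_, h3⟩
      intro y hy
      rcases List.mem_cons.1 hy with rfl | hy
      · exact ha
      · exact h2 y hy
    · exact ⟨[], a, m, by simp, by simp, ha⟩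

section
variable [DecidableEq C]

/-- B1: after a switch with a far edge, short closed walks use only old ports -/
theorem switch_old {bk : C → V} {σ : Equiv.Perm C} {g : ℕ} (hg : Gi bk σ g) {a c : C}
    (hfar : ∀ q r, Ed σ a q → Ed σ c r → ¬ Rch bk σ g (bk q.1) (bk r.1))
    {l : List (C × Bool)} (hl : IsCW bk (sw σ a c) l) (hlen : l.length ≤ g) :
    ∀ q ∈ l, ¬ Ed σ a q ∧ ¬ Ed σ c q := by
  by_contra hcon
  push Not at hcon
  obtain ⟨q, hq, hq2⟩ := hcon
  have hqe : Ed σ a q ∨ Ed σ c q := by
    by_cases h : Ed σ a q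
    · exact Or.inl h
    · exact Or.inr (hq2 h)
  have hdis : ∀ x, Ed σ a x → Ed σ c x → False := fun x h1 h2 =>
    hfar x x h1 h2 (Rch.refl _ _ _ _)
  obtain ⟨l1, l2, rfl⟩ := List.append_of_mem hq
  have hrot : IsCW bk (sw σ a c) (q :: (l2 ++ l1)) := by
    have := hl.rotate
    simpa using this
  set rest := l2 ++ l1 with hrest
  have hlen' : rest.length + 1 ≤ g := by
    simp only [List.length_append, List.length_cons, hrest] at hlen ⊢
    omega
  -- the chain closed up
  have hch : IsW bk (sw σ a c) (q :: (rest ++ [q])) := by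
    unfold IsW
    rw [← List.cons_append, List.isChain_append]
    refine ⟨hrot.1, List.isChain_singleton _, ?_⟩
    intro x hx y hy
    refine hrot.2 x hx y ?_
    simpa using hy
  obtain ⟨s1, q1, s2, hsplit, hold, hnew⟩ := first_split (fun x => ¬ Ed σ a x ∧ ¬ Ed σ c x)
    (rest ++ [q]) ⟨q, by simp, fun h => by rcases hqe with h' | h'; exacts [h.1 h', h.2 h']⟩
  have hq1e : Ed σ a q1 ∨ Ed σ c q1 := by
    by_contra h
    push Not at h
    exact hnew h
  rw [hsplit] at hch
  -- prefix q :: s1 ++ [q1]
  have hch2 : IsW bk (sw σ a c) (q :: (s1 ++ [q1])) := by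
    unfold IsW at hch ⊢
    have : (q :: (s1 ++ q1 :: s2)) = (q :: (s1 ++ [q1])) ++ s2 := by simp
    rw [this] at hch
    exact hch.left_of_append
  unfold IsW at hch2
  rw [List.isChain_cons, List.isChain_append] at hch2
  obtain ⟨d1, d2, -, d4⟩ := hch2
  have holdR : ∀ x ∈ s1, ∀ y, Rl bk (sw σ a c) x y → Rl bk σ x y := by
    intro x hx y h
    unfold Rl at h ⊢
    rw [mt_sw_old (hold x hx).1 (hold x hx).2] at h
    exact h
  have hs1 : IsW bk σ s1 := by
    unfold IsW
    exact List.IsChain.imp_of_mem_imp (fun x y hx _ h => holdR x hx y h) d2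
  set r := mtA (sw σ a c) q with hr
  have hst : ∀ x ∈ (s1 ++ [q1]).head?, bk r.1 = bk x.1 ∧ x ≠ r := fun x hx => d1 x hx
  have hen : ∀ y ∈ s1.getLast?, Rl bk σ y q1 := by
    intro y hy
    exact holdR y (List.mem_of_mem_getLast? hy) q1 (d4 y hy q1 (by simp))
  have hslen : s1.length ≤ rest.length := by
    have := congrArg List.length hsplit
    simp only [List.length_append, List.length_cons, List.length_nil] at this
    omega
  -- reachability from r to q1
  have hreach : Rch bk σ g (bk r.1) (bk q1.1) := by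
    rcases eq_or_ne s1 [] with h0 | hne
    · subst h0
      have := (hst q1 (by simp)).1
      rw [this]
      exact Rch.refl _ _ _ _
    · obtain ⟨x, s', hs'⟩ := List.exists_cons_of_ne_nil hne
      obtain ⟨y, hy⟩ : ∃ y, y ∈ s1.getLast? := by
        refine ⟨s1.getLast hne, ?_⟩
        rw [List.getLast?_eq_some_getLast hne]; simp
      have hx : x ∈ s1.head? := by rw [hs']; simp
      have h1 := Rch.of_chain x y hs1 hx hy
      rw [(hen y hy).1, ← (hst x (by rw [List.head?_append_of_ne_nil _ hne]; exact hx)).1] at h1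
      exact h1.mono (by omega)
  -- same side: q1 ≠ q
  have hside : q1 ≠ q → s1.length + 1 ≤ rest.length := by
    intro hne
    rcases eq_or_ne s2 [] with h0 | h2
    · subst h0
      have := congrArg List.getLast? hsplit
      simp at this
      exact absurd this.symm hne
    · have h3 := congrArg List.length hsplit
      have h4 : 0 < s2.length := List.length_pos_of_ne_nil h2
      simp only [List.length_append, List.length_cons, List.length_nil] at h3
      omega
  rcases hqe with hq' | hq'
  · have hrc : Ed σ c r := mt_sw_a hq'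
    rcases hq1e with h | h
    · exact hfar q1 r h hrc hreach.symm
    · have hne : q1 ≠ q := fun h' => hdis q hq' (h' ▸ h)
      exact core hg hrc h hs1 hst hen (by have := hside hne; omega)
  · have hrc : Ed σ a r := mt_sw_c hq'
    rcases hq1e with h | h
    · have hne : q1 ≠ q := fun h' => hdis q (h' ▸ h) hq'
      exact core hg hrc h hs1 hst hen (by have := hside hne; omega)
    · exact hfar r q1 hrc h hreach

/-- a closed walk of old ports is a closed walk of the old matching -/
theorem cw_of_old {bk : C → V} {σ : Equiv.Perm C} {a c : C} {l : List (C × Bool)}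
    (hl : IsCW bk (sw σ a c) l) (hold : ∀ q ∈ l, ¬ Ed σ a q ∧ ¬ Ed σ c q) : IsCW bk σ l := by
  have holdR : ∀ x ∈ l, ∀ y, Rl bk (sw σ a c) x y → Rl bk σ x y := by
    intro x hx y h
    unfold Rl at h ⊢
    rw [mt_sw_old (hold x hx).1 (hold x hx).2] at h
    exact h
  refine ⟨?_, ?_⟩
  · unfold IsW
    exact List.IsChain.imp_of_mem_imp (fun x y hx _ h => holdR x hx y h) hl.1
  · intro x hx y hy
    exact holdR x (List.mem_of_mem_getLast? hx) y (hl.2 x hx y hy)

theorem switch_girth {bk : C → V} {σ : Equiv.Perm C} {g : ℕ} (hg : Gi bk σ g) {a c : C}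
    (hfar : ∀ q r, Ed σ a q → Ed σ c r → ¬ Rch bk σ g (bk q.1) (bk r.1)) :
    Gi bk (sw σ a c) g := by
  intro l hne hl
  by_contra hlt
  push Not at hlt
  have := cw_of_old hl (switch_old hg hfar hl hlt.le)
  exact absurd (hg l hne this) (not_le.2 hlt)

end

end Vale.Agent.P201.Z.B
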